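import Mathlib
import Vale.Agent.Lib.P249.Greedy.Sharp

namespace Vale.Agent.Results.P249.CoordinateSamplingDistortion

/-- Near-linear dimension reduction in `ℓ_p` by a weighted choice of coordinates, `p ≥ 1`.

For every `D > 1`, every `n ≥ 2` and all points `x i` (`i : Fin n`) of `ℓ_p^N` there are
`m ≤ 49 ((D^p + 1) / (D^p - 1))^2 n (2 log₂ n + 1)^(p-1) log n` coordinates `s t` with weights
`c t ≥ 0` such that the points `y i = (c t * x i (s t))_t` of `ℓ_p^m` satisfy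
`‖x i - x j‖_p ≤ ‖y i - y j‖_p ≤ D ‖x i - x j‖_p`, where `‖z‖_p = (∑ k, |z k|^p)^(1/p)`.
Hence `d_p(n, D) = O(n (log n)^p)` for fixed `p, D`, by (restrictions of) linear maps. -/
theorem result :
    ∀ (p : ℝ), 1 ≤ p → ∀ (D : ℝ), 1 < D → ∀ (n N : ℕ), 2 ≤ n → ∀ x : Fin n → Fin N → ℝ,
      ∃ (m : ℕ) (s : Fin m → Fin N) (c : Fin m → ℝ),
        (m : ℝ) ≤ 49 * ((D ^ p + 1) / (D ^ p - 1)) ^ 2 * n *
          (2 * Real.logb 2 n + 1) ^ (p - 1) * Real.log n ∧
        (∀ t, 0 ≤ c t) ∧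
        ∀ i j,
          (∑ k, |x i k - x j k| ^ p) ^ (1 / p) ≤
            (∑ t, |c t * x i (s t) - c t * x j (s t)| ^ p) ^ (1 / p) ∧
          (∑ t, |c t * x i (s t) - c t * x j (s t)| ^ p) ^ (1 / p) ≤
            D * (∑ k, |x i k - x j k| ^ p) ^ (1 / p) :=
  fun p hp D hD n N hn x =>
    Vale.Agent.Lib.P249.Greedy.Sharp.distortion p hp D hD n hn N x

end Vale.Agent.Results.P249.CoordinateSamplingDistortion
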