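import Mathlib
import Vale.Agent.Lib.P249.Greedy.Sharp

namespace Vale.Agent.Results.P249.CoordinateSamplingTradeoff

/-- Dimension reduction in `ℓ_p` by a weighted choice of coordinates: the general trade-off,
in `p`-th power form with explicit accuracy, for every `p ≥ 1`.

Let `n < q ^ k` with `k ≥ 1`.  For all points `x i` (`i : Fin n`) of `ℓ_p^N` and every
`0 < δ ≤ 1` there are `m ≤ 8 q n (2 k - 1)^(p-1) log (2 n^2) / δ^2 + 1` coordinates `s t` with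
weights `c t ≥ 0` such that the points `y i = (c t * x i (s t))_t` satisfy
`(1 - δ) ‖x i - x j‖_p^p ≤ ‖y i - y j‖_p^p ≤ (1 + δ) ‖x i - x j‖_p^p`, where
`‖z‖_p^p = ∑ k, |z k|^p`. -/
theorem result :
    ∀ (p : ℝ), 1 ≤ p → ∀ (δ : ℝ), 0 < δ → δ ≤ 1 → ∀ (n k q N : ℕ), 1 ≤ n → 1 ≤ k →
      n < q ^ k → ∀ x : Fin n → Fin N → ℝ,
      ∃ (m : ℕ) (s : Fin m → Fin N) (c : Fin m → ℝ),
        (m : ℝ) ≤ 8 * q * n * (2 * (k : ℝ) - 1) ^ (p - 1) * Real.log (2 * (n : ℝ) ^ 2) / δ ^ 2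
          + 1 ∧
        (∀ t, 0 ≤ c t) ∧
        ∀ i j,
          (1 - δ) * ∑ ω, |x i ω - x j ω| ^ p ≤
            ∑ t, |c t * x i (s t) - c t * x j (s t)| ^ p ∧
          ∑ t, |c t * x i (s t) - c t * x j (s t)| ^ p ≤
            (1 + δ) * ∑ ω, |x i ω - x j ω| ^ p :=
  fun p hp δ hδ0 hδ1 n k q N hn hk hq x =>
    Vale.Agent.Lib.P249.Greedy.Sharp.core p hp δ hδ0 hδ1 n hn k q hk hq N x

end Vale.Agent.Results.P249.CoordinateSamplingTradeoff
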