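import Mathlib
import Vale.Agent.Lib.P249.Assemble

namespace Vale.Agent.Results.P249.NearLinearDistortion

/-- Near-linear dimension reduction for finite subsets of `ℓ_p`, for every `p ≥ 1`.

For every `D > 1`, every `n ≥ 2` and every `n` points `x i` of `ℓ_p^m` there are a
dimension `d ≤ 45 n (4 log₂ n)^(p+3) / min(D-1, 1)^2`, a map `f` of the points into
`ℓ_p^d` and a scale `s > 0` with
`s ‖x i - x j‖_p ≤ ‖f i - f j‖_p ≤ D s ‖x i - x j‖_p` for all `i, j`, where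
`‖y‖_p = (∑ k, |y k|^p)^(1/p)`. Hence `d_p(n, D) = O(n (log n)^(p+3))` for fixed `p, D`. -/
theorem result :
    ∀ (p : ℝ), 1 ≤ p → ∀ (D : ℝ), 1 < D → ∀ (n m : ℕ), 2 ≤ n → ∀ x : Fin n → Fin m → ℝ,
      ∃ (d : ℕ) (f : Fin n → Fin d → ℝ) (s : ℝ),
        (d : ℝ) ≤ 45 * n * (4 * Real.logb 2 n) ^ (p + 3) / (min (D - 1) 1) ^ 2 ∧ 0 < s ∧
        ∀ i j,
          s * (∑ k, |x i k - x j k| ^ p) ^ (1 / p) ≤ (∑ t, |f i t - f j t| ^ p) ^ (1 / p) ∧
          (∑ t, |f i t - f j t| ^ p) ^ (1 / p) ≤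
            D * s * (∑ k, |x i k - x j k| ^ p) ^ (1 / p) :=
  fun p hp D hD n m hn x => Vale.Agent.Lib.P249.near_linear_distortion p hp D hD n m hn x

end Vale.Agent.Results.P249.NearLinearDistortion
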