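import Mathlib
import Vale.Agent.Lib.P249.Assemble

namespace Vale.Agent.Results.P249.NearLinearPowers

/-- Near-linear dimension reduction for finite subsets of `ℓ_p`, for every `p ≥ 1`, in
`p`-th power form with explicit dependence on the accuracy.

For every `0 < ε < 1`, every `n ≥ 2` and every `n` points `x i` of `ℓ_p^m` there are a
dimension `d ≤ 5 n (4 log₂ n)^(p+3) / ε^2` and a map `f` of the points into `ℓ_p^d` with
`(1 - ε) ‖x i - x j‖_p^p ≤ ‖f i - f j‖_p^p ≤ (1 + ε) ‖x i - x j‖_p^p` for all `i, j`,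
where `‖y‖_p^p = ∑ k, |y k|^p`. -/
theorem result :
    ∀ (p : ℝ), 1 ≤ p → ∀ (ε : ℝ), 0 < ε → ε < 1 → ∀ (n m : ℕ), 2 ≤ n →
      ∀ x : Fin n → Fin m → ℝ,
      ∃ (d : ℕ) (f : Fin n → Fin d → ℝ),
        (d : ℝ) ≤ 5 * n * (4 * Real.logb 2 n) ^ (p + 3) / ε ^ 2 ∧
        ∀ i j,
          (1 - ε) * ∑ k, |x i k - x j k| ^ p ≤ ∑ t, |f i t - f j t| ^ p ∧
          ∑ t, |f i t - f j t| ^ p ≤ (1 + ε) * ∑ k, |x i k - x j k| ^ p :=
  fun p hp ε hε0 hε1 n m hn x => Vale.Agent.Lib.P249.near_linear p hp ε hε0 hε1 n m hn x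

end Vale.Agent.Results.P249.NearLinearPowers
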